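import Vale.Agent.Snaky.Check
import Vale.Agent.Snaky.Case0
import Vale.Agent.Snaky.Case1
import Vale.Agent.Snaky.Case2
import Vale.Agent.Snaky.Case3
import Vale.Agent.Snaky.Case4
import Vale.Agent.Snaky.Case5
import Vale.Agent.Snaky.Case6

set_option autoImplicit false

/-! The combination of all certificates for the Snaky game. -/

namespace Vale.Agent.Snaky

/-- The intersection of all use masks. -/
def uAll : ℕ := ((((((u0 &&& u1) &&& u2) &&& u3) &&& u4) &&& u5) &&& u6)

theorem invAll : Inv uAll :=
  ((((((inv_of_good case0).and case1).and case2).and case3).and case4).and case5).and case6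

/-- Excepted cells. -/
def exAll : List ℕ := [189, 190, 191, 209, 211, 229, 230, 231]

theorem finalAll : finalCheck uAll exAll = true := by decide +kernel

end Vale.Agent.Snaky
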