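import Vale.Agent.Snaky.Game

set_option autoImplicit false

/-!
# A proof checker for Maker's win in the Snaky game

Positions are bit masks over a `20 × 20` window.  A certificate is a list of numbers, each of which
encodes proof steps that refer to earlier steps.  A step records a Maker position `m` and a mask `u`
of the cells that its proof needs to be free of Breaker stones.  All checking functions are written
with raw primitive operations on natural numbers, so that the kernel evaluates them quickly.
-/

namespace Vale.Agent.Snaky

/-- Window index to cell. -/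
def cell (i : ℕ) : Cell := (((i % 20 : ℕ) : ℤ) - 10, ((i / 20 : ℕ) : ℤ) - 10)

/-- Cell to window index (a left inverse of `cell`). -/
def idx (x : Cell) : ℕ := (x.1 + 10).toNat + 20 * (x.2 + 10).toNat

theorem idx_cell (i : ℕ) : idx (cell i) = i := by
  have h : i % 20 + 20 * (i / 20) = i := Nat.mod_add_div i 20
  simp only [idx, cell, sub_add_cancel, Int.toNat_natCast]
  exact h

theorem cell_inj {i j : ℕ} (h : cell i = cell j) : i = j := by
  have := congrArg idx h
  rwa [idx_cell, idx_cell] at this

/-- The mask `m` represents the finite set `M` of cells. -/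
def Rep (m : ℕ) (M : Finset Cell) : Prop :=
  ∀ x, x ∈ M ↔ ∃ i, m.testBit i = true ∧ cell i = x

/-- `Good m u`: in every position where Maker owns exactly the cells of `m` and Breaker owns no cell
of `u`, Maker (to move) wins. -/
def Good (m u : ℕ) : Prop :=
  ∀ (M B : Finset Cell), Rep m M → (∀ i, u.testBit i = true → cell i ∉ B) → MakerWins M B

theorem testBit_bit (c j : ℕ) : (1 <<< c).testBit j = decide (c = j) := by
  rw [Nat.one_shiftLeft, Nat.testBit_two_pow]

/-- Test of a bit, in raw primitive operations. -/
def bitB (m i : ℕ) : Bool := Nat.beq (Nat.land (Nat.shiftRight m i) 1) 1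

theorem beq_eq_decide (a b : ℕ) : Nat.beq a b = decide (a = b) := by
  rw [Bool.eq_iff_iff]
  simp [Nat.beq_eq]

theorem bitB_eq (m i : ℕ) : bitB m i = m.testBit i := by
  have h : Nat.land (Nat.shiftRight m i) 1 = (m >>> i) % 2 := Nat.and_one_is_mod _
  have h2 : m.testBit i = decide ((m >>> i) % 2 = 1) := by
    rw [Nat.testBit, Nat.one_and_eq_mod_two]
    by_cases h3 : (m >>> i) % 2 = 1 <;> simp [h3]
  rw [h2, bitB, h, beq_eq_decide]

theorem lor_def (a b : ℕ) : Nat.lor a b = a ||| b := rfl
theorem land_def (a b : ℕ) : Nat.land a b = a &&& b := rfl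
theorem xor_def (a b : ℕ) : Nat.xor a b = a ^^^ b := rfl
theorem shl_def (a b : ℕ) : Nat.shiftLeft a b = a <<< b := rfl
theorem shr_def (a b : ℕ) : Nat.shiftRight a b = a >>> b := rfl

theorem beq_true_iff (a b : ℕ) : Nat.beq a b = true ↔ a = b := by
  rw [Nat.beq_eq]

/-! ### A table of verified facts -/

/-- Binary tree used as a table. -/
inductive Tr
  | leaf
  | node (m u : ℕ) (l r : Tr)

/-- Lookup. -/
noncomputable def Tr.get (t : Tr) : ℕ → Option (ℕ × ℕ) :=
  Tr.rec (motive := fun _ => ℕ → Option (ℕ × ℕ)) (fun _ => none)
    (fun m u _ _ ihl ihr k =>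
      cond (Nat.beq k 0) (some (m, u))
        (cond (Nat.beq (Nat.mod k 2) 1) (ihl (Nat.div k 2)) (ihr (Nat.pred (Nat.div k 2))))) t

/-- Insertion. -/
noncomputable def Tr.ins (t : Tr) : ℕ → ℕ → ℕ → Tr :=
  Tr.rec (motive := fun _ => ℕ → ℕ → ℕ → Tr) (fun _ m u => .node m u .leaf .leaf)
    (fun a b l r ihl ihr k m u =>
      cond (Nat.beq (Nat.mod k 2) 1) (.node a b (ihl (Nat.div k 2) m u) r)
        (.node a b l (ihr (Nat.pred (Nat.div k 2)) m u))) t

/-- Every entry of the table is a true fact. -/
def Tr.All : Tr → Prop
  | .leaf => True
  | .node m u l r => Good m u ∧ Tr.All l ∧ Tr.All r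

theorem Tr.All.get {t : Tr} (h : t.All) {k m u : ℕ} (hg : t.get k = some (m, u)) : Good m u := by
  induction t generalizing k with
  | leaf => simp [Tr.get] at hg
  | node a b l r ihl ihr =>
      have hg' : cond (Nat.beq k 0) (some (a, b))
        (cond (Nat.beq (Nat.mod k 2) 1) (l.get (Nat.div k 2)) (r.get (Nat.pred (Nat.div k 2)))) =
          some (m, u) := hg
      cases h0 : Nat.beq k 0
      · rw [h0] at hg'
        cases h1 : Nat.beq (Nat.mod k 2) 1
        · rw [h1] at hg'
          exact ihr h.2.2 hg'
        · rw [h1] at hg'
          exact ihl h.2.1 hg'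
      · rw [h0] at hg'
        simp only [cond_true, Option.some.injEq, Prod.mk.injEq] at hg'
        obtain ⟨rfl, rfl⟩ := hg'
        exact h.1

theorem Tr.All.ins {t : Tr} (h : t.All) {k m u : ℕ} (hg : Good m u) : (t.ins k m u).All := by
  induction t generalizing k with
  | leaf => exact ⟨hg, trivial, trivial⟩
  | node a b l r ihl ihr =>
      show (cond (Nat.beq (Nat.mod k 2) 1) (.node a b (l.ins (Nat.div k 2) m u) r)
        (.node a b l (r.ins (Nat.pred (Nat.div k 2)) m u)) : Tr).All
      cases h1 : Nat.beq (Nat.mod k 2) 1
      · exact ⟨h.1, h.2.1, ihr h.2.2⟩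
      · exact ⟨h.1, ihl h.2.1, h.2.2⟩

/-! ### Breaker replies -/

/-- All replies in `K` are answered, with proofs using only cells of `U`. -/
def Cov (m' K U : ℕ) : Prop :=
  ∀ (M B : Finset Cell), Rep m' M → (∀ j, U.testBit j = true → cell j ∉ B) →
    ∀ i, K.testBit i = true → MakerWins M (insert (cell i) B)

/-- Walk through the packed list of replies, each of 29 bits: a 9-bit cell and a 20-bit reference. -/
noncomputable def repsLoop (t : Tr) (m' : ℕ) (f : ℕ) : ℕ → ℕ → ℕ → Option (ℕ × ℕ) :=
  Nat.rec (motive := fun _ => ℕ → ℕ → ℕ → Option (ℕ × ℕ)) (fun _ _ _ => none)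
    (fun _ ih rest K U =>
      cond (Nat.beq rest 0) (some (K, U))
        (match t.get (Nat.mod (Nat.shiftRight rest 9) 1048576) with
         | none => none
         | some (mb, ub) =>
            cond (and (Nat.beq mb m') (not (bitB ub (Nat.mod rest 512))))
              (ih (Nat.shiftRight rest 29) (Nat.lor K (Nat.shiftLeft 1 (Nat.mod rest 512)))
                (Nat.lor U ub))
              none)) f

theorem subset_or_left (U V j : ℕ) (h : U.testBit j = true) : (U ||| V).testBit j = true := by
  simp [Nat.testBit_or, h]

theorem subset_or_right (U V j : ℕ) (h : V.testBit j = true) : (U ||| V).testBit j = true := by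
  simp [Nat.testBit_or, h]

theorem repsLoop_sound {t : Tr} (ht : t.All) {m' : ℕ} :
    ∀ (f rest K U K' U' : ℕ), Cov m' K U → repsLoop t m' f rest K U = some (K', U') →
      Cov m' K' U' ∧ ∀ j, U.testBit j = true → U'.testBit j = true := by
  intro f
  induction f with
  | zero => intro rest K U K' U' _ h; cases h
  | succ f ih =>
      intro rest K U K' U' hc h
      have h' : cond (Nat.beq rest 0) (some (K, U))
        (match t.get (Nat.mod (Nat.shiftRight rest 9) 1048576) with
         | none => none
         | some (mb, ub) =>
            cond (and (Nat.beq mb m') (not (bitB ub (Nat.mod rest 512))))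
              (repsLoop t m' f (Nat.shiftRight rest 29)
                (Nat.lor K (Nat.shiftLeft 1 (Nat.mod rest 512))) (Nat.lor U ub))
              none) = some (K', U') := h
      cases h0 : Nat.beq rest 0
      · rw [h0] at h'
        simp only [cond_false] at h'
        split at h'
        · cases h'
        · rename_i mb ub hget
          cases hb : and (Nat.beq mb m') (not (bitB ub (Nat.mod rest 512)))
          · rw [hb] at h'; cases h'
          · rw [hb] at h'
            simp only [cond_true] at h'
            simp only [Bool.and_eq_true, Bool.not_eq_true', beq_true_iff, bitB_eq] at hb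
            obtain ⟨rfl, hub⟩ := hb
            have hgood : Good mb ub := ht.get hget
            have hc' : Cov mb (K ||| (1 <<< (Nat.mod rest 512))) (U ||| ub) := by
              intro M B hM hB i hi
              rw [Nat.testBit_or] at hi
              by_cases hKi : K.testBit i = true
              · exact hc M B hM (fun j hj => hB j (subset_or_left _ _ _ hj)) i hKi
              · have hi' : (1 <<< (Nat.mod rest 512)).testBit i = true := by
                  simpa [hKi] using hi
                rw [testBit_bit] at hi'
                have hi2 : Nat.mod rest 512 = i := by simpa using hi'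
                subst hi2
                apply hgood M _ hM
                intro j hj hmem
                rw [Finset.mem_insert] at hmem
                rcases hmem with hmem | hmem
                · have := cell_inj hmem
                  subst this
                  rw [hub] at hj
                  exact Bool.noConfusion hj
                · exact hB j (subset_or_right _ _ _ hj) hmem
            obtain ⟨h1, h2⟩ := ih _ _ _ _ _ hc' h'
            exact ⟨h1, fun j hj => h2 j (subset_or_left _ _ _ hj)⟩
      · rw [h0] at h'
        simp only [cond_true, Option.some.injEq, Prod.mk.injEq] at h'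
        obtain ⟨rfl, rfl⟩ := h'
        exact ⟨hc, fun _ hj => hj⟩

/-! ### Proof steps -/

/-- Shape as a list. -/
def snakyList : List Cell := [(0, 0), (1, 0), (2, 0), (3, 0), (3, 1), (4, 1)]

theorem mem_snakyShape (p : Cell) : p ∈ snakyShape ↔ p ∈ snakyList := by
  simp [snakyShape, snakyList]

/-- All cells of the copy `t + R s` lie in the mask `m`. -/
def copyInMask (m : ℕ) (t : Cell) (swap negX negY : Bool) : Bool :=
  snakyList.all fun p =>
    let x := t + signedPerm swap negX negY p
    decide (cell (idx x) = x) && m.testBit (idx x)

theorem copyInMask_wins {m : ℕ} {M : Finset Cell} (hM : Rep m M) {t : Cell} {s nx ny : Bool}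
    (h : copyInMask m t s nx ny = true) (B : Finset Cell) : MakerWins M B := by
  refine MakerWins.done (A := snakyShape.image (fun p => t + signedPerm s nx ny p))
    ⟨t, s, nx, ny, rfl⟩ ?_
  intro x hx
  obtain ⟨p, hp, rfl⟩ := Finset.mem_image.mp hx
  have hp' : p ∈ snakyList := (mem_snakyShape p).mp hp
  have := List.all_eq_true.mp h p hp'
  simp only [Bool.and_eq_true, decide_eq_true_eq] at this
  exact (hM _).mpr ⟨_, this.2, this.1⟩

/-- Masks of lines in raw form: for orientation `o`, the base mask, and the shifts
`lx hx ly hy` of the bounding box relative to the base cell. -/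
def lineData (o : ℕ) : ℕ × ℕ × ℕ × ℕ × ℕ :=
  match o with
  | 0 => (0x180000f, 0, 4, 0, 1)
  | 1 => (0x200003000010000100001, 0, 1, 0, 4)
  | 2 => (0x30001e, 4, 0, 0, 1)
  | 3 => (0x100003000020000200002, 1, 0, 0, 4)
  | 4 => (0xf00018, 0, 4, 1, 0)
  | 5 => (0x100001000010000300002, 0, 1, 4, 0)
  | 6 => (0x1e00003, 4, 0, 1, 0)
  | _ => (0x200002000020000300001, 1, 0, 4, 0)

/-- The mask of the line with base cell `ti` and orientation `o`, if it fits in the window. -/
def lineMask (ti o : ℕ) : Option ℕ :=
  match lineData o with
  | (mask, lx, hx, ly, hy) =>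
      let x := Nat.mod ti 20
      let y := Nat.div ti 20
      cond (and (Nat.ble lx x) (and (Nat.blt (Nat.add x hx) 20)
          (and (Nat.ble ly y) (Nat.blt (Nat.add y hy) 20))))
        (some (Nat.shiftLeft mask (Nat.sub (Nat.sub ti lx) (Nat.mul 20 ly))))
        none

/-- Orientation number to signed permutation data. -/
def oBits (o : ℕ) : Bool × Bool × Bool :=
  (Nat.beq (o % 2) 1, Nat.beq ((o / 2) % 2) 1, Nat.beq ((o / 4) % 2) 1)

/-- The check, over all base cells and orientations, that `lineMask` is right. -/
def lineMaskOK : Bool :=
  (List.range 400).all fun ti => (List.range 8).all fun o =>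
    match lineMask ti o with
    | none => true
    | some mask => copyInMask mask (cell ti) (oBits o).1 (oBits o).2.1 (oBits o).2.2

theorem lineMaskOK_true : lineMaskOK = true := by decide +kernel

theorem lineMask_sound {ti o mask : ℕ} (hti : ti < 400) (ho : o < 8) (h : lineMask ti o = some mask) :
    copyInMask mask (cell ti) (oBits o).1 (oBits o).2.1 (oBits o).2.2 = true := by
  have h1 := lineMaskOK_true
  unfold lineMaskOK at h1
  have h2 := List.all_eq_true.mp h1 ti (List.mem_range.mpr hti)
  have h3 := List.all_eq_true.mp h2 o (List.mem_range.mpr ho)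
  rw [h] at h3
  exact h3

theorem copyInMask_mono {mask m' : ℕ} {t : Cell} {s nx ny : Bool} (hsub : m' &&& mask = mask)
    (h : copyInMask mask t s nx ny = true) : copyInMask m' t s nx ny = true := by
  unfold copyInMask at h ⊢
  rw [List.all_eq_true] at h ⊢
  intro p hp
  have := h p hp
  simp only [Bool.and_eq_true, decide_eq_true_eq] at this ⊢
  refine ⟨this.1, ?_⟩
  have h2 : (m' &&& mask).testBit (idx (t + signedPerm s nx ny p)) = true := by
    rw [hsub]; exact this.2
  rw [Nat.testBit_and, Bool.and_eq_true] at h2
  exact h2.1

/-- A node step: Maker plays `c`; the default continuation is table entry `d`; `rest` lists the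
replies. Its result is the pair `(m, u)`. -/
noncomputable def nodeStep (t : Tr) (c d rest : ℕ) : Option (ℕ × ℕ) :=
  match t.get d with
  | none => none
  | some (m', ud) =>
      cond (bitB m' c)
        (match repsLoop t m' 512 rest 0 0 with
         | none => none
         | some (K, U) =>
            cond (Nat.beq (Nat.land ud (Nat.lor K m')) ud)
              (some (Nat.xor m' (Nat.shiftLeft 1 c),
                Nat.lor (Nat.shiftLeft 1 c) (Nat.lor ud U)))
              none)
        none

theorem cov_zero (m' U : ℕ) : Cov m' 0 U := by
  intro M B _ _ i hi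
  simp at hi

theorem rep_insert {m' c : ℕ} {M : Finset Cell} (hc : m'.testBit c = true)
    (hM : Rep (m' ^^^ (1 <<< c)) M) : Rep m' (insert (cell c) M) ∧ cell c ∉ M := by
  have hbit : ∀ j, (m' ^^^ (1 <<< c)).testBit j = (m'.testBit j ^^ decide (c = j)) := by
    intro j; rw [Nat.testBit_xor, testBit_bit]
  constructor
  · intro x
    rw [Finset.mem_insert, hM x]
    constructor
    · rintro (rfl | ⟨i, hi, rfl⟩)
      · exact ⟨c, hc, rfl⟩
      · refine ⟨i, ?_, rfl⟩
        rw [hbit] at hi
        by_cases hci : c = i
        · subst hci; exact hc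
        · simpa [hci] using hi
    · rintro ⟨i, hi, rfl⟩
      by_cases hci : c = i
      · subst hci; exact Or.inl rfl
      · refine Or.inr ⟨i, ?_, rfl⟩
        rw [hbit]; simpa [hci] using hi
  · intro hmem
    obtain ⟨i, hi, hci⟩ := (hM _).mp hmem
    have := cell_inj hci
    subst this
    rw [hbit] at hi
    simp [hc] at hi

theorem nodeStep_sound {t : Tr} (ht : t.All) {c d rest m u : ℕ}
    (h : nodeStep t c d rest = some (m, u)) : Good m u := by
  unfold nodeStep at h
  split at h
  · cases h
  · rename_i m' ud hget
    cases hc : bitB m' c
    · rw [hc] at h; cases h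
    · rw [hc] at h
      simp only [cond_true] at h
      rw [bitB_eq] at hc
      split at h
      · cases h
      · rename_i K U hr
        cases hud : Nat.beq (Nat.land ud (Nat.lor K m')) ud
        · rw [hud] at h; cases h
        · rw [hud] at h
          simp only [cond_true, Option.some.injEq, Prod.mk.injEq] at h
          simp only [beq_true_iff, land_def, lor_def] at hud
          simp only [lor_def, xor_def, shl_def] at h
          obtain ⟨rfl, rfl⟩ := h
          have hgood : Good m' ud := ht.get hget
          obtain ⟨hcov, -⟩ := repsLoop_sound ht 512 rest 0 0 K U (cov_zero _ _) hr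
          intro M B hM hB
          obtain ⟨hM', hcM⟩ := rep_insert hc hM
          have hUd : ∀ j, ud.testBit j = true →
              ((1 <<< c) ||| (ud ||| U)).testBit j = true := fun j hj =>
            subset_or_right _ _ _ (subset_or_left _ _ _ hj)
          have hUU : ∀ j, U.testBit j = true →
              ((1 <<< c) ||| (ud ||| U)).testBit j = true := fun j hj =>
            subset_or_right _ _ _ (subset_or_right _ _ _ hj)
          have hcB : cell c ∉ B := by
            apply hB c
            apply subset_or_left
            rw [testBit_bit]; simp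
          refine MakerWins.step (cell c) hcM hcB ?_
          intro b hbM hbB hbc
          by_cases hK : ∃ i, K.testBit i = true ∧ cell i = b
          · obtain ⟨i, hi, rfl⟩ := hK
            exact hcov _ B hM' (fun j hj => hB j (hUU j hj)) i hi
          · apply hgood _ _ hM'
            intro j hj hmem
            rw [Finset.mem_insert] at hmem
            rcases hmem with hmem | hmem
            · have hj2 : (ud &&& (K ||| m')).testBit j = true := by rw [hud]; exact hj
              rw [Nat.testBit_and, Nat.testBit_or] at hj2
              simp only [Bool.and_eq_true, Bool.or_eq_true] at hj2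
              rcases hj2.2 with hjK | hjm
              · exact hK ⟨j, hjK, hmem⟩
              · have : cell j ∈ insert (cell c) M := (hM' _).mpr ⟨j, hjm, rfl⟩
                rw [Finset.mem_insert] at this
                rcases this with h1 | h1
                · exact hbc (hmem.symm.trans h1)
                · exact hbM (hmem ▸ h1)
            · exact hB j (hUd j hj) hmem

/-- A final step: Maker plays `c` with the position `m`, completing the line with base `ti` and
orientation `o`. -/
def leafStep (c m ti o : ℕ) : Option (ℕ × ℕ) :=
  match lineMask ti o with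
  | none => none
  | some mask =>
      let m' := Nat.lor m (Nat.shiftLeft 1 c)
      cond (and (not (bitB m c)) (and (Nat.beq (Nat.land m' mask) mask)
          (and (Nat.blt ti 400) (Nat.blt o 8))))
        (some (m, Nat.shiftLeft 1 c))
        none

theorem leafStep_sound {c m ti o m1 u : ℕ} (h : leafStep c m ti o = some (m1, u)) : Good m1 u := by
  unfold leafStep at h
  split at h
  · cases h
  · rename_i mask hmask
    simp only at h
    cases hc : and (not (bitB m c)) (and (Nat.beq (Nat.land (Nat.lor m (Nat.shiftLeft 1 c)) mask) mask)
          (and (Nat.blt ti 400) (Nat.blt o 8)))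
    · rw [hc] at h; cases h
    · rw [hc] at h
      simp only [cond_true, Option.some.injEq, Prod.mk.injEq] at h
      simp only [Bool.and_eq_true, Bool.not_eq_true', beq_true_iff, land_def, lor_def, shl_def,
        bitB_eq, Nat.blt_eq] at hc
      simp only [shl_def] at h
      obtain ⟨rfl, rfl⟩ := h
      obtain ⟨hc0, hsub, hti, ho⟩ := hc
      have hcopy := copyInMask_mono hsub (lineMask_sound hti ho hmask)
      intro M B hM hB
      have hcB : cell c ∉ B := hB c (by rw [testBit_bit]; simp)
      have hcM : cell c ∉ M := by
        intro hmem
        obtain ⟨i, hi, hci⟩ := (hM _).mp hmem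
        have := cell_inj hci
        subst this
        rw [hc0] at hi
        exact Bool.noConfusion hi
      have hM' : Rep (m ||| (1 <<< c)) (insert (cell c) M) := by
        intro x
        rw [Finset.mem_insert, hM x]
        constructor
        · rintro (rfl | ⟨i, hi, rfl⟩)
          · exact ⟨c, subset_or_right _ _ _ (by rw [testBit_bit]; simp), rfl⟩
          · exact ⟨i, subset_or_left _ _ _ hi, rfl⟩
        · rintro ⟨i, hi, rfl⟩
          rw [Nat.testBit_or, Bool.or_eq_true] at hi
          rcases hi with hi | hi
          · exact Or.inr ⟨i, hi, rfl⟩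
          · rw [testBit_bit] at hi
            have : c = i := by simpa using hi
            subst this
            exact Or.inl rfl
      refine MakerWins.step (cell c) hcM hcB ?_
      intro b _ _ _
      exact copyInMask_wins hM' hcopy _

/-- One proof step, packed as a number. -/
noncomputable def stepE (t : Tr) (n : ℕ) : Option (ℕ × ℕ) :=
  cond (Nat.beq (Nat.land (Nat.shiftRight n 9) 1) 1)
    (leafStep (Nat.mod n 512) (Nat.shiftRight n 22) (Nat.mod (Nat.shiftRight n 10) 512)
      (Nat.mod (Nat.shiftRight n 19) 8))
    (nodeStep t (Nat.mod n 512) (Nat.mod (Nat.shiftRight n 10) 1048576) (Nat.shiftRight n 30))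

theorem stepE_sound {t : Tr} (ht : t.All) {n m u : ℕ} (h : stepE t n = some (m, u)) : Good m u := by
  unfold stepE at h
  cases hb : Nat.beq (Nat.land (Nat.shiftRight n 9) 1) 1
  · rw [hb] at h
    exact nodeStep_sound ht h
  · rw [hb] at h
    exact leafStep_sound h

/-- Process a chunk: a number holding many steps, each with a 16-bit length field. -/
noncomputable def runChunk (f : ℕ) : ℕ → Tr → ℕ → Option (Tr × ℕ) :=
  Nat.rec (motive := fun _ => ℕ → Tr → ℕ → Option (Tr × ℕ)) (fun _ _ _ => none)
    (fun _ ih X t k =>
      cond (Nat.beq X 0) (some (t, k))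
        (let len := Nat.mod X 65536
         match stepE t (Nat.mod (Nat.shiftRight X 16) (Nat.shiftLeft 1 len)) with
         | none => none
         | some (m, u) => ih (Nat.shiftRight X (Nat.add 16 len)) (t.ins k m u) (Nat.succ k))) f

theorem runChunk_sound : ∀ (f X : ℕ) (t : Tr) (k : ℕ) (t' : Tr) (k' : ℕ), t.All →
    runChunk f X t k = some (t', k') → t'.All := by
  intro f
  induction f with
  | zero => intro X t k t' k' _ h; cases h
  | succ f ih =>
      intro X t k t' k' ht h
      have h' : cond (Nat.beq X 0) (some (t, k))
        (let len := Nat.mod X 65536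
         match stepE t (Nat.mod (Nat.shiftRight X 16) (Nat.shiftLeft 1 len)) with
         | none => none
         | some (m, u) => runChunk f (Nat.shiftRight X (Nat.add 16 len)) (t.ins k m u) (Nat.succ k))
          = some (t', k') := h
      cases h0 : Nat.beq X 0
      · rw [h0] at h'
        simp only [cond_false] at h'
        split at h'
        · cases h'
        · rename_i m u he
          exact ih _ _ _ _ _ (ht.ins (stepE_sound ht he)) h'
      · rw [h0] at h'
        simp only [cond_true, Option.some.injEq, Prod.mk.injEq] at h'
        exact h'.1 ▸ ht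

/-- Process a list of chunks. -/
noncomputable def run : List ℕ → Tr → ℕ → Option Tr
  | [], t, _ => some t
  | X :: Xs, t, k =>
      match runChunk 4096 X t k with
      | none => none
      | some (t', k') => run Xs t' k'

theorem run_sound (l : List ℕ) : ∀ (t : Tr) (k : ℕ) (t' : Tr), t.All → run l t k = some t' → t'.All := by
  induction l with
  | nil =>
      intro t k t' ht h
      simp only [run, Option.some.injEq] at h
      exact h ▸ ht
  | cons n ns ih =>
      intro t k t' ht h
      simp only [run] at h
      split at h
      · cases h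
      · rename_i t1 k1 he
        exact ih _ _ _ (runChunk_sound _ _ _ _ _ _ ht he) h

/-! ### Symmetry of the game -/

theorem signedPerm_add (s nx ny : Bool) (a b : Cell) :
    signedPerm s nx ny (a + b) = signedPerm s nx ny a + signedPerm s nx ny b := by
  apply Prod.ext <;> cases s <;> cases nx <;> cases ny <;> simp [signedPerm] <;> ring

theorem signedPerm_comp (s nx ny s2 nx2 ny2 : Bool) :
    ∃ s3 nx3 ny3 : Bool, ∀ p,
      signedPerm s nx ny (signedPerm s2 nx2 ny2 p) = signedPerm s3 nx3 ny3 p := by
  refine ⟨xor s s2, cond s (xor nx ny2) (xor nx nx2), cond s (xor ny nx2) (xor ny ny2), fun p => ?_⟩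
  cases s <;> cases s2 <;> cases nx <;> cases ny <;> cases nx2 <;> cases ny2 <;> simp [signedPerm]

/-- Inverse of a signed permutation. -/
def invPerm (s nx ny : Bool) : Bool × Bool × Bool :=
  (s, cond s ny nx, cond s nx ny)

theorem signedPerm_inv_left (s nx ny : Bool) (p : Cell) :
    signedPerm (invPerm s nx ny).1 (invPerm s nx ny).2.1 (invPerm s nx ny).2.2
      (signedPerm s nx ny p) = p := by
  cases s <;> cases nx <;> cases ny <;> simp [signedPerm, invPerm]

theorem signedPerm_inv_right (s nx ny : Bool) (p : Cell) :
    signedPerm s nx ny
      (signedPerm (invPerm s nx ny).1 (invPerm s nx ny).2.1 (invPerm s nx ny).2.2 p) = p := by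
  cases s <;> cases nx <;> cases ny <;> simp [signedPerm, invPerm]

theorem signedPerm_injective (s nx ny : Bool) : Function.Injective (signedPerm s nx ny) :=
  Function.LeftInverse.injective (signedPerm_inv_left s nx ny)

theorem IsAllowedCopy.map {A : Finset Cell} (h : IsAllowedCopy A) (s nx ny : Bool) :
    IsAllowedCopy (A.image (signedPerm s nx ny)) := by
  obtain ⟨t, s2, nx2, ny2, rfl⟩ := h
  obtain ⟨s3, nx3, ny3, h3⟩ := signedPerm_comp s nx ny s2 nx2 ny2
  refine ⟨signedPerm s nx ny t, s3, nx3, ny3, ?_⟩
  rw [Finset.image_image]
  apply Finset.image_congr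
  intro p _
  simp [signedPerm_add, h3]

theorem MakerWins.map (s nx ny : Bool) {M B : Finset Cell} (h : MakerWins M B) :
    MakerWins (M.image (signedPerm s nx ny)) (B.image (signedPerm s nx ny)) := by
  induction h with
  | done hA hAM => exact MakerWins.done (hA.map s nx ny) (Finset.image_subset_image hAM)
  | @step M B c hcM hcB _ ih =>
      refine MakerWins.step (signedPerm s nx ny c) ?_ ?_ ?_
      · intro hmem
        obtain ⟨x, hx, hxc⟩ := Finset.mem_image.mp hmem
        exact hcM (signedPerm_injective s nx ny hxc ▸ hx)
      · intro hmem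
        obtain ⟨x, hx, hxc⟩ := Finset.mem_image.mp hmem
        exact hcB (signedPerm_injective s nx ny hxc ▸ hx)
      · intro b' hbM hbB hbc
        set b := signedPerm (invPerm s nx ny).1 (invPerm s nx ny).2.1 (invPerm s nx ny).2.2 b' with hb
        have hb' : signedPerm s nx ny b = b' := signedPerm_inv_right s nx ny b'
        have h1 : b ∉ M := fun hm => hbM (hb' ▸ Finset.mem_image_of_mem _ hm)
        have h2 : b ∉ B := fun hm => hbB (hb' ▸ Finset.mem_image_of_mem _ hm)
        have h3 : b ≠ c := fun he => hbc (by rw [← hb', he])
        have := ih b h1 h2 h3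
        rw [Finset.image_insert, Finset.image_insert, hb'] at this
        exact this

/-! ### The top level -/

/-- The mask of the single stone at the origin, whose index is `210`. -/
def originMask : ℕ := Nat.shiftLeft 1 210

/-- All eight signed permutations. -/
def allPerms : List (Bool × Bool × Bool) :=
  [(false, false, false), (false, false, true), (false, true, false), (false, true, true),
   (true, false, false), (true, false, true), (true, true, false), (true, true, true)]

/-- The final check over the window, allowing a list `ex` of excepted cells. -/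
def finalCheck (I : ℕ) (ex : List ℕ) : Bool :=
  Nat.blt I (Nat.shiftLeft 1 400) &&
    (List.range 400).all fun i =>
      Nat.beq i 210 || !bitB I i || ex.contains i ||
        allPerms.any fun g => !bitB I (idx (signedPerm g.1 g.2.1 g.2.2 (cell i)))

/-- The check of one table of proof steps, whose entry `x` must be the pair `(originMask, u)`. -/
noncomputable def caseCheck (data : List ℕ) (x u : ℕ) : Bool :=
  match run data .leaf 0 with
  | none => false
  | some t =>
      match t.get x with
      | none => false
      | some (m, u') => Nat.beq m originMask && Nat.beq u' u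

theorem case_sound {data : List ℕ} {x u : ℕ} (h : caseCheck data x u = true) :
    Good originMask u := by
  unfold caseCheck at h
  split at h
  · cases h
  · rename_i t hrun
    have ht : t.All := run_sound data .leaf 0 t trivial hrun
    split at h
    · cases h
    · rename_i m u' hget
      rw [Bool.and_eq_true, beq_true_iff, beq_true_iff] at h
      obtain ⟨rfl, rfl⟩ := h
      exact ht.get hget

theorem rep_origin : Rep originMask {((0 : ℤ), (0 : ℤ))} := by
  intro y
  rw [Finset.mem_singleton]
  constructor
  · rintro rfl
    refine ⟨210, ?_, by decide⟩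
    have : (1 <<< 210 : ℕ).testBit 210 = true := by rw [testBit_bit]; simp
    exact this
  · rintro ⟨i, hi, rfl⟩
    have : (1 <<< 210).testBit i = true := hi
    rw [testBit_bit] at this
    have h2 : 210 = i := by simpa using this
    subst h2
    decide

/-- Facts about the position with one stone at the origin. -/
def Inv (I : ℕ) : Prop :=
  (∀ y : Cell, I.testBit (idx y) = false → MakerWins {((0 : ℤ), (0 : ℤ))} {y}) ∧
    (∀ y : Cell, (∀ j, cell j ≠ y) → MakerWins {((0 : ℤ), (0 : ℤ))} {y})

theorem inv_of_good {u : ℕ} (h : Good originMask u) : Inv u := by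
  constructor
  · intro y hy
    apply h _ _ rep_origin
    intro j hj hmem
    rw [Finset.mem_singleton] at hmem
    have : j = idx y := by rw [← hmem, idx_cell]
    rw [← this, hj] at hy
    exact Bool.noConfusion hy
  · intro y hy
    apply h _ _ rep_origin
    intro j _ hmem
    rw [Finset.mem_singleton] at hmem
    exact hy j hmem

theorem Inv.and {I u : ℕ} (hI : Inv I) (h : Good originMask u) : Inv (I &&& u) := by
  refine ⟨?_, hI.2⟩
  intro y hy
  rw [Nat.testBit_and, Bool.and_eq_false_iff] at hy
  rcases hy with hy | hy
  · exact hI.1 y hy
  · exact (inv_of_good h).1 y hy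

theorem origin_fixed (s nx ny : Bool) : signedPerm s nx ny ((0 : ℤ), (0 : ℤ)) = (0, 0) := by
  cases s <;> cases nx <;> cases ny <;> simp [signedPerm]

theorem final_sound {I : ℕ} {ex : List ℕ} (hI : Inv I) (h : finalCheck I ex = true) (b : Cell)
    (hb : b ≠ ((0 : ℤ), (0 : ℤ))) (hex : ∀ i ∈ ex, cell i ≠ b) :
    MakerWins {((0 : ℤ), (0 : ℤ))} {b} := by
  unfold finalCheck at h
  rw [Bool.and_eq_true, Nat.blt_eq] at h
  obtain ⟨hlt, hall⟩ := h
  cases hbit : I.testBit (idx b)
  · exact hI.1 b hbit
  · have hi : idx b < 400 := by
      by_contra hge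
      have hge' : 400 ≤ idx b := by omega
      have hlt' : I < 2 ^ 400 := by
        have : Nat.shiftLeft 1 400 = 2 ^ 400 := Nat.one_shiftLeft 400
        rwa [this] at hlt
      have := Nat.testBit_lt_two_pow (lt_of_lt_of_le hlt' (Nat.pow_le_pow_right (by norm_num) hge'))
      rw [hbit] at this
      exact Bool.noConfusion this
    by_cases hcell : cell (idx b) = b
    · have h2 := List.all_eq_true.mp hall (idx b) (List.mem_range.mpr hi)
      simp only [Bool.or_eq_true, Bool.not_eq_true', bitB_eq, beq_true_iff, hbit] at h2
      rcases h2 with ((h2 | h2) | h2) | h2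
      · exfalso
        apply hb
        rw [← hcell, h2]
        decide
      · exact Bool.noConfusion h2
      · exact absurd hcell (hex _ (by simpa using h2))
      · obtain ⟨g, _, hg⟩ := List.any_eq_true.mp h2
        rw [Bool.not_eq_true', hcell] at hg
        have hw := hI.1 _ hg
        have := hw.map (invPerm g.1 g.2.1 g.2.2).1 (invPerm g.1 g.2.1 g.2.2).2.1 (invPerm g.1 g.2.1 g.2.2).2.2
        rw [Finset.image_singleton, Finset.image_singleton, origin_fixed, signedPerm_inv_left] at this
        exact this
    · apply hI.2
      intro j hj
      apply hcell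
      rw [← hj, idx_cell]

/-- The first move of Maker at the origin reduces the game to its replies. -/
theorem wins_of_replies (h : ∀ b : Cell, b ≠ ((0 : ℤ), (0 : ℤ)) → MakerWins {((0 : ℤ), (0 : ℤ))} {b}) :
    MakerWins ∅ ∅ := by
  refine MakerWins.step ((0 : ℤ), (0 : ℤ)) (by simp) (by simp) ?_
  intro b _ _ hb
  simpa using h b hb

end Vale.Agent.Snaky
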