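import Mathlib

set_option autoImplicit false

/-!
# The Snaky achievement game on the initially empty board `ℤ × ℤ`

This file holds only the definitions used by the statement.
-/

namespace Vale.Agent.Snaky

/-- A cell of the square grid, indexed by its lower-left corner. -/
abbrev Cell := ℤ × ℤ

/-- The hexomino Snaky. -/
def snakyShape : Finset Cell := {(0, 0), (1, 0), (2, 0), (3, 0), (3, 1), (4, 1)}

/-- The eight `2 × 2` signed permutation matrices, acting on cells:
optionally swap the two coordinates, then optionally negate each coordinate. -/
def signedPerm (swap negX negY : Bool) (p : Cell) : Cell :=
  let q : Cell := if swap then (p.2, p.1) else p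
  (if negX then -q.1 else q.1, if negY then -q.2 else q.2)

/-- An allowed copy of Snaky: a translate of the image of the shape under a signed
permutation matrix. -/
def IsAllowedCopy (A : Finset Cell) : Prop :=
  ∃ (t : Cell) (swap negX negY : Bool),
    A = snakyShape.image (fun p => t + signedPerm swap negX negY p)

/-- `MakerWins M B`: Maker owns `M`, Breaker owns `B`, it is Maker's turn, and Maker can force a
win after finitely many turns against every legal Breaker play. This is the least predicate such
that either Maker already owns all cells of an allowed copy, or Maker has a legal move `c` after
which every legal Breaker reply `b` leads to a position with the same property. -/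
inductive MakerWins : Finset Cell → Finset Cell → Prop
  | done {M B A : Finset Cell} (hA : IsAllowedCopy A) (hAM : A ⊆ M) : MakerWins M B
  | step {M B : Finset Cell} (c : Cell) (hcM : c ∉ M) (hcB : c ∉ B)
      (h : ∀ b : Cell, b ∉ M → b ∉ B → b ≠ c → MakerWins (insert c M) (insert b B)) :
      MakerWins M B

end Vale.Agent.Snaky
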